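import Vale.Agent.P181.NR.H46.Num

set_option autoImplicit false

/-!
# P181, NR, block (N8): `LowR` and `UpR` give `CoreR`
-/

open Finset

namespace Vale.Agent.P181.NR.H46

open Vale.Agent.P181.NR Vale.Agent.P181.H280 Vale.Agent.P181.FR

/-- One constant for all `j`. -/
theorem low_unif (hL : LowR) {m n : ℕ} (hm : 3 ≤ m) (hn : 4 * m + 4 ≤ n)
    (hd : m.factorial ∣ n) : ∃ K : ℕ, 0 < K ∧ ∀ j, 3 ≤ j → j ≤ m → ∀ (a b B : ℕ) (g : ℕ → ℕ),
      K ≤ a → 0 < B → b ≤ 2 * n * B → n * B * a + K * a + K * B ≤ a * b → K * (a + B) ≤ g j →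
      ∑ i ∈ Finset.Icc 1 m, i * g i = a * b →
      (∏ i : Fin m, max 1 (gw m g i / (K * B)) ^ (n - 2 * m - 1)) ^ B ≤
        (n * B).factorial * (n + n * a).choose n ^ B * plethMult b a m (gw m g) := by
  choose! Kf hK0 hKf using fun j (h : 3 ≤ j ∧ j ≤ m) => hL m j n h.1 h.2 hn hd
  have hle : ∀ j, 3 ≤ j → j ≤ m → Kf j ≤ ∑ i ∈ Icc 3 m, Kf i := fun j h1 h2 =>
    Finset.single_le_sum (f := Kf) (fun i _ => Nat.zero_le _) (Finset.mem_Icc.mpr ⟨h1, h2⟩)
  have h0 : 0 < ∑ i ∈ Icc 3 m, Kf i := lt_of_lt_of_le (hK0 3 ⟨le_rfl, hm⟩) (hle 3 le_rfl hm)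
  refine ⟨∑ i ∈ Icc 3 m, Kf i, h0, ?_⟩
  intro j h1 h2 a b B g ha hB hb hab hg hs
  have hj := hle j h1 h2
  set K := ∑ i ∈ Icc 3 m, Kf i
  have hj0 := hK0 j ⟨h1, h2⟩
  refine le_trans ?_ (hKf j ⟨h1, h2⟩ a b B g (hj.trans ha) hB hb ?_ ?_ hs)
  · refine Nat.pow_le_pow_left (Finset.prod_le_prod' fun i _ => ?_) B
    refine Nat.pow_le_pow_left (max_le_max le_rfl ?_) _
    exact Nat.div_le_div_left (Nat.mul_le_mul_right B hj) (Nat.mul_pos hj0 hB)
  · have := Nat.mul_le_mul_right a hj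
    have := Nat.mul_le_mul_right B hj
    omega
  · exact (Nat.mul_le_mul_right _ hj).trans hg

theorem row_lem {K B l : ℕ} {ε L c2 : ℝ} (hK : 0 < K) (hB : 0 < B) (hL : 0 ≤ L)
    (hlogB : Real.log B ≤ (1 + ε) * L) (hεL : 0 ≤ ε * L)
    (hc : Real.log 2 + Real.log K ≤ c2) (hc0 : 0 ≤ c2) :
    max 0 (Real.log l - L) - ε * L - c2 ≤ fl (K * B) l := by
  have hKR : (0 : ℝ) < K := by exact_mod_cast hK
  have hBR : (0 : ℝ) < B := by exact_mod_cast hB
  have hKB : 0 < K * B := Nat.mul_pos hK hB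
  have hlogKB : Real.log ((K * B : ℕ) : ℝ) = Real.log K + Real.log B := by
    push_cast
    exact Real.log_mul hKR.ne' hBR.ne'
  rcases le_total (Real.log l - L) 0 with h | h
  · rw [max_eq_left h]
    linarith [fl_nonneg (K * B) l]
  · rw [max_eq_right h]
    rcases Nat.eq_zero_or_pos l with h0 | h0
    · subst h0
      have h1 := fl_nonneg (K * B) 0
      simp only [Nat.cast_zero, Real.log_zero]
      linarith
    · have h7 := fl_ge hKB h0
      rw [hlogKB] at h7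
      linarith

theorem ch_lem {a : ℕ} (ha : 0 < a) (l : ℕ) : Real.log (((a + l).choose l : ℕ) : ℝ) ≤
    a * (max 0 (Real.log l - Real.log a) + 2) := by
  have haR : (0 : ℝ) < a := by exact_mod_cast ha
  have hl2' : Real.log 2 ≤ 1 := by linarith [Real.log_two_lt_d9]
  have h7 := log_choose_le ha (Nat.le_add_right a l)
  rw [Nat.choose_symm_add] at h7
  refine h7.trans (mul_le_mul_of_nonneg_left ?_ haR.le)
  have hx0 : 0 ≤ max 0 (Real.log l - Real.log a) := le_max_left _ _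
  have h8 : Real.log (((a + l : ℕ) : ℝ) / a) ≤ Real.log 2 + max 0 (Real.log l - Real.log a) := by
    rcases le_total l a with h | h
    · have h9 : ((a + l : ℕ) : ℝ) / a ≤ 2 := by
        rw [div_le_iff₀ haR]; push_cast
        have : (l : ℝ) ≤ a := by exact_mod_cast h
        linarith
      have h10 := Real.log_le_log (by push_cast; positivity) h9
      linarith
    · have hlR : (0 : ℝ) < l := by exact_mod_cast lt_of_lt_of_le ha h
      have h9 : ((a + l : ℕ) : ℝ) / a ≤ 2 * (l / a) := by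
        rw [div_le_iff₀ haR]; push_cast
        have h' : (a : ℝ) ≤ l := by exact_mod_cast h
        have : 2 * ((l : ℝ) / a) * a = 2 * l := by field_simp
        linarith
      have h10 := Real.log_le_log (by push_cast; positivity) h9
      rw [Real.log_mul (by norm_num) (by positivity), Real.log_div hlR.ne' haR.ne'] at h10
      have h11 : Real.log l - Real.log a ≤ max 0 (Real.log l - Real.log a) := le_max_right _ _
      linarith
  linarith

theorem D_lem {a b : ℕ} {ε : ℝ} (ha : 0 < a) (hab : a ≤ b)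
    (hlogb : Real.log b ≤ (1 + ε) * Real.log a) :
    Real.log (((a + b).choose a : ℕ) : ℝ) ≤ a * (ε * Real.log a + 2) := by
  have haR : (0 : ℝ) < a := by exact_mod_cast ha
  have hbR : (0 : ℝ) < b := by exact_mod_cast lt_of_lt_of_le ha hab
  have hl2' : Real.log 2 ≤ 1 := by linarith [Real.log_two_lt_d9]
  refine (log_choose_le ha (Nat.le_add_right a b)).trans (mul_le_mul_of_nonneg_left ?_ haR.le)
  have h9 : ((a + b : ℕ) : ℝ) / a ≤ 2 * (b / a) := by
    rw [div_le_iff₀ haR]; push_cast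
    have h' : (a : ℝ) ≤ b := by exact_mod_cast hab
    have : 2 * ((b : ℝ) / a) * a = 2 * b := by field_simp
    linarith
  have h10 := Real.log_le_log (by push_cast; positivity) h9
  rw [Real.log_mul (by norm_num) (by positivity), Real.log_div hbR.ne' haR.ne'] at h10
  linarith

theorem C_lem {a n : ℕ} (ha : 0 < a) (hn : 0 < n) :
    Real.log (((n + n * a).choose n : ℕ) : ℝ) ≤ n * (Real.log a + Real.log (2 * n)) := by
  have haR : (0 : ℝ) < a := by exact_mod_cast ha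
  have hnR : (0 : ℝ) < n := by exact_mod_cast hn
  have h7 : (((n + n * a).choose n : ℕ) : ℝ) ≤ (2 * n * a) ^ n := by
    have h8 : (n + n * a).choose n ≤ (n + n * a) ^ n := Nat.choose_le_pow _ _
    have h9 : (n + n * a) ^ n ≤ (2 * n * a) ^ n :=
      Nat.pow_le_pow_left (by
        have := Nat.le_mul_of_pos_right n ha
        linarith) n
    exact_mod_cast h8.trans h9
  have h10 := Real.log_le_log (by
    exact_mod_cast Nat.choose_pos (Nat.le_add_right n (n * a))) h7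
  rw [Real.log_pow, Real.log_mul (by positivity) haR.ne'] at h10
  linarith

theorem x_le {a b l : ℕ} {ε : ℝ} (ha : 0 < a) (hb : 0 < b) (hl : l ≤ a * b) (hε1 : ε ≤ 1)
    (hlogb : Real.log b ≤ (1 + ε) * Real.log a) (hL : 0 ≤ Real.log a) :
    max 0 (Real.log l - Real.log a) ≤ 2 * Real.log a := by
  have haR : (0 : ℝ) < a := by exact_mod_cast ha
  have hbR : (0 : ℝ) < b := by exact_mod_cast hb
  refine max_le (by linarith) ?_
  rcases Nat.eq_zero_or_pos l with h0 | h0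
  · rw [h0]; simp; linarith
  · have h8 : (l : ℝ) ≤ a * b := by exact_mod_cast hl
    have h9 := Real.log_le_log (by exact_mod_cast h0) h8
    rw [Real.log_mul haR.ne' hbR.ne'] at h9
    have h10 : ε * Real.log a ≤ 1 * Real.log a := mul_le_mul_of_nonneg_right hε1 hL
    linarith

theorem row0_lem {k a b B K : ℕ} (lam : Fin (k + 3) → ℕ) (hanti : Antitone lam)
    (hsum : ∑ i, lam i = a * b) (ha : 0 < a) (hb : 0 < b) (hK : 0 < K) (hB : 0 < B)
    (hlogB : Real.log B ≤ Real.log b) :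
    Real.log a - (Real.log 2 + Real.log ((k + 3 : ℕ) : ℝ) + Real.log K) ≤
      fl (K * B) (lam 0) := by
  have haR : (0 : ℝ) < a := by exact_mod_cast ha
  have hbR : (0 : ℝ) < b := by exact_mod_cast hb
  have hKR : (0 : ℝ) < K := by exact_mod_cast hK
  have hBR : (0 : ℝ) < B := by exact_mod_cast hB
  have hmR : (0 : ℝ) < ((k + 3 : ℕ) : ℝ) := by exact_mod_cast Nat.succ_pos _
  have hKB : 0 < K * B := Nat.mul_pos hK hB
  have hlogKB : Real.log ((K * B : ℕ) : ℝ) = Real.log K + Real.log B := by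
    push_cast
    exact Real.log_mul hKR.ne' hBR.ne'
  have h : a * b ≤ (k + 3) * lam 0 := by
    rw [← hsum]
    have h' := Finset.sum_le_card_nsmul (univ : Finset (Fin (k + 3))) lam (lam 0)
      (fun i _ => hanti (Fin.zero_le i))
    simpa using h'
  have hp : 0 < lam 0 := by
    rcases Nat.eq_zero_or_pos (lam 0) with h0 | h0
    · rw [h0] at h
      have : 0 < a * b := Nat.mul_pos ha hb
      omega
    · exact h0
  have hpR : (0 : ℝ) < (lam 0 : ℝ) := by exact_mod_cast hp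
  have h2 : (a : ℝ) * b ≤ ((k + 3 : ℕ) : ℝ) * lam 0 := by exact_mod_cast h
  have h3' := Real.log_le_log (by positivity) h2
  rw [Real.log_mul haR.ne' hbR.ne', Real.log_mul hmR.ne' hpR.ne'] at h3'
  have h7 := fl_ge hKB hp
  rw [hlogKB] at h7
  linarith

theorem logR {k B K P : ℕ} (lam : Fin (k + 3) → ℕ) :
    Real.log (((∏ i : Fin (k + 3), max 1 (lam i / (K * B)) ^ P) ^ B : ℕ) : ℝ) =
      B * (P * ∑ i : Fin (k + 3), fl (K * B) (lam i)) := by
  rw [Nat.cast_pow, Real.log_pow, Nat.cast_prod, Real.log_prod]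
  · congr 1
    rw [Finset.mul_sum]
    refine Finset.sum_congr rfl fun i _ => ?_
    rw [Nat.cast_pow, Real.log_pow]
    rfl
  · intro i _
    have : 0 < max 1 (lam i / (K * B)) ^ P :=
      Nat.pow_pos (lt_of_lt_of_le one_pos (le_max_left _ _))
    exact_mod_cast this.ne'

/-- The comparison of the two bounds, in natural numbers. -/
theorem num_le {k a b B n K : ℕ} {ε κ δ : ℝ} (lam : Fin (k + 3) → ℕ) (hanti : Antitone lam)
    (hsum : ∑ i, lam i = a * b) (ha : 0 < a) (hab : a ≤ b) (hB : 0 < B) (hK : 0 < K)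
    (hn : 2 * (k + 3) + 1 ≤ n) (hnB : n * B ≤ b)
    (hε : 0 < ε) (hε1 : ε ≤ 1) (hκ : 0 < κ) (hδ : 0 < δ) (hδ1 : δ ≤ 1)
    (hb : (b : ℝ) ≤ (a : ℝ) ^ (1 + ε)) (hl1 : (a : ℝ) ^ (2 - ε) ≤ lam 1)
    (hl2 : (a : ℝ) ^ (1 + κ) ≤ lam 2) (h1 : (1 + δ / 2) * (a : ℝ) ≤ n * B)
    (h3 : ((k + 3 : ℕ) : ℝ) * Real.log (2 * (k + 3 : ℕ) * K) + Real.log (2 * n) ≤
      ε * Real.log a)
    (h4 : 2 * ((k + 3 : ℕ) : ℝ) ≤ ε * Real.log a)
    (h5 : (((k + 3 : ℕ) : ℝ) + 3) * ε ≤ δ * κ / 8)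
    (h6 : ((2 * (k + 3) + 1 : ℕ) : ℝ) * (2 * ((k + 3 : ℕ) : ℝ) + 2) ≤ δ * κ / 8 * n) :
    (n * B).factorial * (n + n * a).choose n ^ B *
      ((a + b).choose a * ∏ i : Fin (k + 1), (a + lam i.succ.succ).choose (lam i.succ.succ)) ≤
    (∏ i : Fin (k + 3), max 1 (lam i / (K * B)) ^ (n - 2 * (k + 3) - 1)) ^ B := by
  have haR : (0 : ℝ) < a := by exact_mod_cast ha
  have haR1 : (1 : ℝ) ≤ a := by exact_mod_cast ha
  have hbR : (0 : ℝ) < b := by exact_mod_cast lt_of_lt_of_le ha hab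
  have hBR : (0 : ℝ) < B := by exact_mod_cast hB
  have hBR1 : (1 : ℝ) ≤ B := by exact_mod_cast hB
  have hKR : (0 : ℝ) < K := by exact_mod_cast hK
  have hKR1 : (1 : ℝ) ≤ K := by exact_mod_cast hK
  have hn0 : 0 < n := by omega
  have hnR : (0 : ℝ) < n := by exact_mod_cast hn0
  have hnR1 : (1 : ℝ) ≤ n := by exact_mod_cast hn0
  have hmR : (3 : ℝ) ≤ ((k + 3 : ℕ) : ℝ) := by push_cast; linarith [(Nat.cast_nonneg k : (0:ℝ) ≤ k)]
  set m : ℝ := ((k + 3 : ℕ) : ℝ) with hmdef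
  set L : ℝ := Real.log a with hLdef
  have hL0 : 0 ≤ L := Real.log_nonneg haR1
  have hl2' : Real.log 2 ≤ 1 := by linarith [Real.log_two_lt_d9]
  have hl20 : 0 ≤ Real.log 2 := Real.log_nonneg (by norm_num)
  set c2 : ℝ := Real.log (2 * m * K) with hc2def
  set c1 : ℝ := Real.log (2 * n) with hc1def
  have hc2e : c2 = Real.log 2 + Real.log m + Real.log K := by
    rw [hc2def, Real.log_mul (by positivity) hKR.ne', Real.log_mul (by norm_num) (by positivity)]
  have hlm : 0 ≤ Real.log m := Real.log_nonneg (by linarith)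
  have hlK : 0 ≤ Real.log K := Real.log_nonneg hKR1
  have hc2 : 0 ≤ c2 := by rw [hc2e]; positivity
  have hlogb : Real.log b ≤ (1 + ε) * L := by
    have h := Real.log_le_log hbR hb
    rwa [Real.log_rpow haR] at h
  have hBb : (B : ℝ) ≤ b := by
    have : B ≤ b := le_trans (Nat.le_mul_of_pos_left B hn0) hnB
    exact_mod_cast this
  have hlogB : Real.log B ≤ Real.log b := Real.log_le_log hBR hBb
  have hKB : 0 < K * B := Nat.mul_pos hK hB
  have hlogKB : Real.log ((K * B : ℕ) : ℝ) = Real.log K + Real.log B := by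
    push_cast
    exact Real.log_mul hKR.ne' hBR.ne'
  have hεL : 0 ≤ ε * L := by positivity
  -- the rows
  have hpos1 : (0 : ℝ) < (lam 1 : ℝ) := lt_of_lt_of_le (Real.rpow_pos_of_pos haR _) hl1
  have hlog1 : (2 - ε) * L ≤ Real.log (lam 1) := by
    have h := Real.log_le_log (Real.rpow_pos_of_pos haR _) hl1
    rwa [Real.log_rpow haR] at h
  have hlog2 : (1 + κ) * L ≤ Real.log (lam 2) := by
    have h := Real.log_le_log (Real.rpow_pos_of_pos haR _) hl2
    rwa [Real.log_rpow haR] at h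
  have hrow0 : L - c2 ≤ fl (K * B) (lam 0) := by
    have h := row0_lem lam hanti hsum ha (lt_of_lt_of_le ha hab) hK hB hlogB
    rw [hc2e]
    exact h
  have hrow1 : L - 2 * (ε * L) - c2 ≤ fl (K * B) (lam 1) := by
    have hp : 0 < lam 1 := by exact_mod_cast hpos1
    have h7 := fl_ge hKB hp
    rw [hlogKB] at h7
    rw [hc2e]
    linarith
  set x : ℕ → ℝ := fun l => max 0 (Real.log l - L) with hx
  have hx0 : ∀ l, 0 ≤ x l := fun l => le_max_left _ _
  have hrow : ∀ l : ℕ, x l - ε * L - c2 ≤ fl (K * B) l := fun l =>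
    row_lem hK hB hL0 (hlogB.trans hlogb) hεL (by rw [hc2e]; linarith) hc2
  have hxle : ∀ i : Fin (k + 3), x (lam i) ≤ 2 * L := fun i =>
    x_le ha (lt_of_lt_of_le ha hab) (by
      rw [← hsum]
      exact Finset.single_le_sum (f := lam) (fun i _ => Nat.zero_le _) (Finset.mem_univ i))
      hε1 hlogb hL0
  set S : ℝ := ∑ i : Fin (k + 1), x (lam i.succ.succ) with hS
  have hS1 : κ * L ≤ S := by
    have h7 : x (lam 2) ≤ S := by
      have h8 := Finset.single_le_sum (f := fun i : Fin (k + 1) => x (lam i.succ.succ))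
        (fun i _ => hx0 _) (Finset.mem_univ 0)
      have h9 : (Fin.succ (Fin.succ (0 : Fin (k + 1)))) = (2 : Fin (k + 3)) := by
        ext; simp
      rw [hS]
      simpa [h9] using h8
    have h8 : Real.log (lam 2) - L ≤ x (lam 2) := le_max_right _ _
    linarith
  have hS2 : S ≤ 2 * m * L := by
    have h7 : S ≤ ∑ i : Fin (k + 1), 2 * L := Finset.sum_le_sum fun i _ => hxle _
    rw [Finset.sum_const, Finset.card_univ, Fintype.card_fin, nsmul_eq_mul] at h7
    refine h7.trans ?_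
    have h8 : ((k + 1 : ℕ) : ℝ) ≤ m := by rw [hmdef]; push_cast; linarith
    have h9 := mul_le_mul_of_nonneg_right h8 (by linarith : 0 ≤ 2 * L)
    linarith
  -- logarithms of both sides
  set P : ℕ := n - 2 * (k + 3) - 1 with hP
  have hPR : (P : ℝ) = n - ((2 * (k + 3) + 1 : ℕ) : ℝ) := by
    rw [hP, Nat.sub_sub, Nat.cast_sub hn]
  have hlow : (B : ℝ) * (P * (2 * L + S - m * (ε * L) - m * c2)) ≤
      B * (P * ∑ i : Fin (k + 3), fl (K * B) (lam i)) := by
    have h7 : 2 * L + S - m * (ε * L) - m * c2 ≤ ∑ i : Fin (k + 3), fl (K * B) (lam i) := by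
      rw [Fin.sum_univ_succ, Fin.sum_univ_succ]
      have h8 : S - (k + 1 : ℕ) * (ε * L) - (k + 1 : ℕ) * c2 ≤
          ∑ i : Fin (k + 1), fl (K * B) (lam i.succ.succ) := by
        have h9 : ∑ i : Fin (k + 1), (x (lam i.succ.succ) - ε * L - c2) ≤
            ∑ i : Fin (k + 1), fl (K * B) (lam i.succ.succ) :=
          Finset.sum_le_sum fun i _ => hrow _
        rw [Finset.sum_sub_distrib, Finset.sum_sub_distrib, Finset.sum_const, Finset.sum_const,
          Finset.card_univ, Fintype.card_fin, nsmul_eq_mul, nsmul_eq_mul] at h9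
        exact h9
      have h10 : (Fin.succ (0 : Fin (k + 2))) = (1 : Fin (k + 3)) := by ext; simp
      rw [h10]
      have h11 : m = ((k + 1 : ℕ) : ℝ) + 2 := by rw [hmdef]; push_cast; ring
      rw [h11]
      linarith
    exact mul_le_mul_of_nonneg_left (mul_le_mul_of_nonneg_left h7 (Nat.cast_nonneg P)) hBR.le
  have hD : Real.log (((a + b).choose a : ℕ) : ℝ) ≤ a * (ε * L + 2) := D_lem ha hab hlogb
  have hF : Real.log (((n * B).factorial : ℕ) : ℝ) ≤ n * B * ((1 + ε) * L) := by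
    refine (log_fact_le (n * B)).trans ?_
    push_cast
    refine mul_le_mul_of_nonneg_left ?_ (by positivity)
    have h7 : ((n : ℝ) * B) ≤ b := by exact_mod_cast hnB
    exact (Real.log_le_log (by positivity) h7).trans hlogb
  have hC : Real.log (((n + n * a).choose n : ℕ) : ℝ) ≤ n * (L + c1) := C_lem ha hn0
  have hprod : Real.log ((∏ i : Fin (k + 1),
      (a + lam i.succ.succ).choose (lam i.succ.succ) : ℕ) : ℝ) ≤ a * (S + 2 * (m - 2)) := by
    rw [Nat.cast_prod, Real.log_prod]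
    · have h7 : ∑ i : Fin (k + 1), Real.log
          (((a + lam i.succ.succ).choose (lam i.succ.succ) : ℕ) : ℝ) ≤
          ∑ i : Fin (k + 1), a * (x (lam i.succ.succ) + 2) :=
        Finset.sum_le_sum fun i _ => ch_lem ha _
      refine h7.trans (le_of_eq ?_)
      rw [← Finset.mul_sum, Finset.sum_add_distrib, Finset.sum_const, Finset.card_univ,
        Fintype.card_fin, nsmul_eq_mul, hmdef, ← hS]
      push_cast
      ring
    · intro i _
      exact_mod_cast (Nat.choose_pos (Nat.le_add_left _ _)).ne'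
  have hpos : (0 : ℝ) < (((∏ i : Fin (k + 3), max 1 (lam i / (K * B)) ^ P) ^ B : ℕ) : ℝ) := by
    have : 0 < (∏ i : Fin (k + 3), max 1 (lam i / (K * B)) ^ P) ^ B :=
      Nat.pow_pos (Finset.prod_pos fun i _ => Nat.pow_pos (lt_of_lt_of_le one_pos (le_max_left _ _)))
    exact_mod_cast this
  have hR : Real.log (((∏ i : Fin (k + 3), max 1 (lam i / (K * B)) ^ P) ^ B : ℕ) : ℝ) =
      B * (P * ∑ i : Fin (k + 3), fl (K * B) (lam i)) := logR lam
  have hCpos : (0 : ℝ) < (((n + n * a).choose n : ℕ) : ℝ) := by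
    exact_mod_cast Nat.choose_pos (Nat.le_add_right n (n * a))
  have hDpos : (0 : ℝ) < (((a + b).choose a : ℕ) : ℝ) := by
    exact_mod_cast Nat.choose_pos (Nat.le_add_right a b)
  have hFpos : (0 : ℝ) < (((n * B).factorial : ℕ) : ℝ) := by exact_mod_cast Nat.factorial_pos _
  have hEpos : (0 : ℝ) < ((∏ i : Fin (k + 1),
      (a + lam i.succ.succ).choose (lam i.succ.succ) : ℕ) : ℝ) := by
    have : 0 < ∏ i : Fin (k + 1), (a + lam i.succ.succ).choose (lam i.succ.succ) :=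
      Finset.prod_pos fun i _ => Nat.choose_pos (Nat.le_add_left _ _)
    exact_mod_cast this
  have hfin := alg (p := ((2 * (k + 3) + 1 : ℕ) : ℝ)) hmR hnR haR hBR.le hL0 hε hκ hδ hδ1
    (Nat.cast_nonneg _) hc2 h1 hS1 hS2 h3 h4 h5 h6
  have hmain : Real.log (((n * B).factorial * (n + n * a).choose n ^ B *
      ((a + b).choose a * ∏ i : Fin (k + 1),
        (a + lam i.succ.succ).choose (lam i.succ.succ)) : ℕ) : ℝ) ≤
      Real.log (((∏ i : Fin (k + 3), max 1 (lam i / (K * B)) ^ P) ^ B : ℕ) : ℝ) := by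
    rw [hR]
    refine le_trans ?_ hlow
    rw [Nat.cast_mul, Nat.cast_mul, Nat.cast_mul, Nat.cast_pow,
      Real.log_mul (mul_pos hFpos (pow_pos hCpos B)).ne' (mul_pos hDpos hEpos).ne',
      Real.log_mul hFpos.ne' (pow_pos hCpos B).ne', Real.log_mul hDpos.ne' hEpos.ne',
      Real.log_pow]
    have h12 : (B : ℝ) * Real.log (((n + n * a).choose n : ℕ) : ℝ) ≤ B * (n * (L + c1)) :=
      mul_le_mul_of_nonneg_left hC hBR.le
    rw [hPR]
    linarith
  have hAll : (0 : ℝ) < (((n * B).factorial * (n + n * a).choose n ^ B *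
      ((a + b).choose a * ∏ i : Fin (k + 1),
        (a + lam i.succ.succ).choose (lam i.succ.succ)) : ℕ) : ℝ) := by
    rw [Nat.cast_mul, Nat.cast_mul, Nat.cast_mul, Nat.cast_pow]
    exact mul_pos (mul_pos hFpos (pow_pos hCpos B)) (mul_pos hDpos hEpos)
  have hlast := (Real.log_le_log_iff hAll hpos).mp hmain
  exact_mod_cast hlast

/-- A large gap `g j`, `j ≥ 3`. -/
theorem gap_lem {k a b B K n : ℕ} {ε κ : ℝ} (lam : Fin (k + 3) → ℕ) {g : ℕ → ℕ}
    (hg : gw (k + 3) g = lam) (ha : 0 < a) (hab : a ≤ b) (hBb : B ≤ b) (hK : 0 < K) (hn : 0 < n)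
    (hε : 0 < ε) (hεκ : 2 * ε ≤ κ) (hb : (b : ℝ) ≤ (a : ℝ) ^ (1 + ε))
    (hl2 : (a : ℝ) ^ (1 + κ) ≤ lam 2)
    (h3 : ((k + 3 : ℕ) : ℝ) * Real.log (2 * (k + 3 : ℕ) * K) + Real.log (2 * n) ≤
      ε * Real.log a) :
    ∃ j, 3 ≤ j ∧ j ≤ k + 3 ∧ K * (a + B) ≤ g j := by
  by_contra hcon
  push Not at hcon
  have haR : (0 : ℝ) < a := by exact_mod_cast ha
  have haR1 : (1 : ℝ) ≤ a := by exact_mod_cast ha
  have hKR1 : (1 : ℝ) ≤ K := by exact_mod_cast hK
  have hKR : (0 : ℝ) < K := by linarith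
  have hnR1 : (1 : ℝ) ≤ n := by exact_mod_cast hn
  have hmR : (3 : ℝ) ≤ ((k + 3 : ℕ) : ℝ) := by
    push_cast; linarith [(Nat.cast_nonneg k : (0 : ℝ) ≤ k)]
  set m : ℝ := ((k + 3 : ℕ) : ℝ) with hmdef
  have hL0 : 0 ≤ Real.log a := Real.log_nonneg haR1
  have e1 : lam 2 ≤ (k + 3) * (K * (a + B)) := by
    have h : lam 2 = ∑ j ∈ Ioc 2 (k + 3), g j := by
      have h2 : ((2 : Fin (k + 3)) : ℕ) = 2 := Nat.mod_eq_of_lt (show 2 < k + 3 by omega)
      rw [← hg]
      change ∑ j ∈ Ioc ((2 : Fin (k + 3)) : ℕ) (k + 3), g j = _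
      rw [h2]
    rw [h]
    have h' := Finset.sum_le_card_nsmul (Ioc 2 (k + 3)) g (K * (a + B)) (fun j hj => by
      have hj' := Finset.mem_Ioc.mp hj
      exact (hcon j (by omega) hj'.2).le)
    refine h'.trans ?_
    rw [Nat.card_Ioc, smul_eq_mul]
    exact Nat.mul_le_mul_right _ (by omega)
  have e2 : (lam 2 : ℝ) ≤ m * (K * (a + B)) := by rw [hmdef]; exact_mod_cast e1
  have e3 : (a : ℝ) + B ≤ 2 * (a : ℝ) ^ (1 + ε) := by
    have h' : (a : ℝ) ≤ b := by exact_mod_cast hab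
    have h'' : (B : ℝ) ≤ b := by exact_mod_cast hBb
    linarith
  have e4 : (a : ℝ) ^ (1 + κ) ≤ 2 * m * K * (a : ℝ) ^ (1 + ε) := by
    have h' := mul_le_mul_of_nonneg_left e3 (by positivity : (0 : ℝ) ≤ m * K)
    calc (a : ℝ) ^ (1 + κ) ≤ m * (K * (a + B)) := hl2.trans e2
      _ = m * K * (a + B) := by ring
      _ ≤ m * K * (2 * (a : ℝ) ^ (1 + ε)) := h'
      _ = _ := by ring
  have e5 := Real.log_le_log (Real.rpow_pos_of_pos haR _) e4
  rw [Real.log_rpow haR, Real.log_mul (by positivity) (Real.rpow_pos_of_pos haR _).ne',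
    Real.log_rpow haR] at e5
  have e6 : 0 < Real.log (2 * (n : ℝ)) := Real.log_pos (by linarith)
  have e7 : 0 ≤ Real.log (2 * m * K) := Real.log_nonneg (by nlinarith)
  have e8 : 1 * Real.log (2 * m * K) ≤ m * Real.log (2 * m * K) :=
    mul_le_mul_of_nonneg_right (by linarith) e7
  have e9 : 2 * ε * Real.log a ≤ κ * Real.log a := mul_le_mul_of_nonneg_right hεκ hL0
  linarith

/-- The choice of the number `B` of blocks. -/
theorem block_lem {a b n K t : ℕ} {δ : ℝ} (ha : 0 < a) (hn : 0 < n) (hδ : 0 < δ) (hδ1 : δ ≤ 1)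
    (ht : 8 ≤ t * δ) (hK : 2 * t * K ≤ a) (h4n : 4 * (n : ℝ) ≤ δ * a)
    (hab : (1 + δ) * (a : ℝ) ≤ b) :
    ∃ B : ℕ, 0 < B ∧ n * B ≤ b ∧ b ≤ 2 * n * B ∧ n * B * a + K * a + K * B ≤ a * b ∧
      (1 + δ / 2) * (a : ℝ) ≤ n * B := by
  have haR : (0 : ℝ) < a := by exact_mod_cast ha
  have hnR : (0 : ℝ) < n := by exact_mod_cast hn
  have ht8 : (8 : ℝ) ≤ t := by
    have htn : (0 : ℝ) ≤ t := Nat.cast_nonneg t
    nlinarith
  have ht8' : 8 ≤ t := by exact_mod_cast ht8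
  have htR : (0 : ℝ) < t := by linarith
  have hδa : 0 < δ * a := by positivity
  have hab' : (a : ℝ) ≤ b := by linarith
  have habN : a ≤ b := by exact_mod_cast hab'
  have htn : 0 < t * n := Nat.mul_pos (by omega) hn
  obtain ⟨B, hB⟩ : ∃ B, B = ((t - 1) * b) / (t * n) := ⟨_, rfl⟩
  have hB1 : t * n * B ≤ (t - 1) * b := by rw [hB]; exact Nat.mul_div_le _ _
  have hB2 : (t - 1) * b < t * n * B + t * n := by
    have h := Nat.div_add_mod ((t - 1) * b) (t * n)
    have h' := Nat.mod_lt ((t - 1) * b) htn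
    rw [← hB] at h
    omega
  have hc : ((t - 1 : ℕ) : ℝ) = (t : ℝ) - 1 := by
    rw [Nat.cast_sub (by omega)]; simp
  have r1 : (t : ℝ) * n * B ≤ (t - 1) * b := by rw [← hc]; exact_mod_cast hB1
  have r2 : ((t : ℝ) - 1) * b < t * n * B + t * n := by rw [← hc]; exact_mod_cast hB2
  have h1 : (1 + δ / 2) * (a : ℝ) ≤ n * B := by
    have e1 : ((t : ℝ) - 1) * ((1 + δ) * a) ≤ (t - 1) * b :=
      mul_le_mul_of_nonneg_left hab (by linarith)
    have e2 : (t : ℝ) * (4 * n) ≤ t * (δ * a) := mul_le_mul_of_nonneg_left h4n htR.le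
    have e3 : 8 * (a : ℝ) ≤ t * δ * a := mul_le_mul_of_nonneg_right ht haR.le
    have e4 : δ * (a : ℝ) ≤ 1 * a := mul_le_mul_of_nonneg_right hδ1 haR.le
    have e5 : (t : ℝ) * ((1 + δ / 2) * a) ≤ t * (n * B) := by linarith
    exact le_of_mul_le_mul_left e5 htR
  have hB0 : 0 < B := by
    rcases Nat.eq_zero_or_pos B with h0 | h0
    · rw [h0] at h1
      simp at h1
      nlinarith
    · exact h0
  have hnB : n * B ≤ b := by
    have h : t * (n * B) ≤ t * b := by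
      calc t * (n * B) = t * n * B := by ring
        _ ≤ (t - 1) * b := hB1
        _ ≤ t * b := Nat.mul_le_mul_right b (Nat.sub_le t 1)
    exact Nat.le_of_mul_le_mul_left h (by omega)
  refine ⟨B, hB0, hnB, ?_, ?_, h1⟩
  · have e1 : 8 * (b : ℝ) ≤ t * b := mul_le_mul_of_nonneg_right ht8 (by linarith)
    have e2 : 4 * (n : ℝ) ≤ b := by
      have : δ * (a : ℝ) ≤ 1 * a := mul_le_mul_of_nonneg_right hδ1 haR.le
      linarith
    have e3 : (t : ℝ) * (4 * n) ≤ t * b := mul_le_mul_of_nonneg_left e2 htR.le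
    have e5 : (t : ℝ) * b ≤ t * (2 * n * B) := by linarith
    have e6 := le_of_mul_le_mul_left e5 htR
    exact_mod_cast e6
  · have hBb : B ≤ b := le_trans (Nat.le_mul_of_pos_left B hn) hnB
    have x1 : t * (n * B * a) ≤ (t - 1) * b * a := by
      calc t * (n * B * a) = t * n * B * a := by ring
        _ ≤ (t - 1) * b * a := Nat.mul_le_mul_right a hB1
    have x2 : 2 * t * K * a ≤ a * b :=
      (Nat.mul_le_mul_right a hK).trans (Nat.mul_le_mul_left a habN)
    have x3 : 2 * t * K * B ≤ a * b :=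
      (Nat.mul_le_mul_right B hK).trans (Nat.mul_le_mul_left a hBb)
    have x4 : (t - 1) * b * a + a * b = t * (a * b) := by
      obtain ⟨s, rfl⟩ : ∃ s, t = s + 1 := ⟨t - 1, by omega⟩
      simp only [Nat.add_sub_cancel]
      ring
    have x5 : t * (n * B * a + K * a + K * B) ≤ t * (a * b) := by
      have y : t * (n * B * a + K * a + K * B) =
        t * (n * B * a) + t * K * a + t * K * B := by ring
      have y2 : 2 * t * K * a = 2 * (t * K * a) := by ring
      have y3 : 2 * t * K * B = 2 * (t * K * B) := by ring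
      rw [y2] at x2
      rw [y3] at x3
      omega
    exact Nat.le_of_mul_le_mul_left x5 (by omega)

/-- **(N8)** -/
theorem core (hL : LowR) (hU : UpR) : CoreR := by
  intro k δ₀ κ₀ hδ₀ hκ₀
  obtain ⟨δ, hδ, hδ1, hδle⟩ : ∃ δ : ℝ, 0 < δ ∧ δ ≤ 1 ∧ δ ≤ δ₀ :=
    ⟨min δ₀ 1, lt_min hδ₀ one_pos, min_le_right _ _, min_le_left _ _⟩
  obtain ⟨κ, hκ, hκ1, hκle⟩ : ∃ κ : ℝ, 0 < κ ∧ κ ≤ 1 ∧ κ ≤ κ₀ :=
    ⟨min κ₀ 1, lt_min hκ₀ one_pos, min_le_right _ _, min_le_left _ _⟩
  have hmR : (3 : ℝ) ≤ ((k + 3 : ℕ) : ℝ) := by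
    push_cast; linarith [(Nat.cast_nonneg k : (0 : ℝ) ≤ k)]
  set m : ℝ := ((k + 3 : ℕ) : ℝ) with hmdef
  have hδκ : 0 < δ * κ := mul_pos hδ hκ
  have hδκ1 : δ * κ ≤ κ := by nlinarith
  obtain ⟨ε, hε, h5⟩ : ∃ ε : ℝ, 0 < ε ∧ (m + 3) * ε = δ * κ / 8 :=
    ⟨δ * κ / (8 * (m + 3)), by positivity, by field_simp⟩
  have h6ε : 6 * ε ≤ κ / 8 := by
    have : 6 * ε ≤ (m + 3) * ε := mul_le_mul_of_nonneg_right (by linarith) hε.le
    linarith
  have hε1 : ε ≤ 1 := by linarith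
  have hεκ : 2 * ε ≤ κ := by linarith
  obtain ⟨N, hN⟩ := exists_nat_ge (((2 * (k + 3) + 1 : ℕ) : ℝ) * (2 * m + 2) / (δ * κ / 8))
  obtain ⟨n, hn⟩ : ∃ n, n = (k + 3).factorial * (N + (4 * (k + 3) + 4)) := ⟨_, rfl⟩
  have hnN : N + (4 * (k + 3) + 4) ≤ n := by
    rw [hn]; exact Nat.le_mul_of_pos_left _ (Nat.factorial_pos _)
  have hn1 : 4 * (k + 3) + 4 ≤ n := by omega
  have hn0 : 0 < n := by omega
  have hdvd : (k + 3).factorial ∣ n := ⟨_, hn⟩
  have h6 : ((2 * (k + 3) + 1 : ℕ) : ℝ) * (2 * m + 2) ≤ δ * κ / 8 * n := by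
    rw [div_le_iff₀ (by positivity)] at hN
    have h' : (N : ℝ) ≤ n := by
      have : N ≤ n := by omega
      exact_mod_cast this
    have h'' := mul_le_mul_of_nonneg_right h' (by positivity : 0 ≤ δ * κ / 8)
    linarith
  obtain ⟨K, hK, hlow⟩ := low_unif hL (by omega : 3 ≤ k + 3) hn1 hdvd
  obtain ⟨t, ht⟩ := exists_nat_ge (8 / δ)
  have ht' : 8 ≤ t * δ := by rwa [div_le_iff₀ hδ] at ht
  set c : ℝ := m * Real.log (2 * (k + 3 : ℕ) * K) + Real.log (2 * n) with hc
  have hnR : (0 : ℝ) < n := by exact_mod_cast hn0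
  have hKR : (0 : ℝ) < K := by exact_mod_cast hK
  refine ⟨ε, Real.exp (c / ε) + Real.exp (2 * m / ε) + 2 * t * K + 4 * n / δ + K + 1, hε,
    by positivity, ?_⟩
  intro a b lam hanti hsum hA hδb hb hl1 hl2
  have q1 : 0 < Real.exp (c / ε) := Real.exp_pos _
  have q2 : 0 < Real.exp (2 * m / ε) := Real.exp_pos _
  have q3 : (0 : ℝ) ≤ 2 * t * K := by positivity
  have q4 : 0 < 4 * n / δ := by positivity
  have haR : (0 : ℝ) < a := by linarith
  have ha : 0 < a := by exact_mod_cast haR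
  have h3 : c ≤ ε * Real.log a := by
    have h : c / ε ≤ Real.log a := (Real.le_log_iff_exp_le haR).mpr (by linarith)
    rw [div_le_iff₀ hε] at h
    linarith
  have h4 : 2 * m ≤ ε * Real.log a := by
    have h : 2 * m / ε ≤ Real.log a := (Real.le_log_iff_exp_le haR).mpr (by linarith)
    rw [div_le_iff₀ hε] at h
    linarith
  have hKa : K ≤ a := by
    have : (K : ℝ) ≤ a := by linarith
    exact_mod_cast this
  have hKt : 2 * t * K ≤ a := by
    have : 2 * (t : ℝ) * K ≤ a := by linarith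
    exact_mod_cast this
  have h4n : 4 * (n : ℝ) ≤ δ * a := by
    have h : 4 * (n : ℝ) / δ ≤ a := by linarith
    rw [div_le_iff₀ hδ] at h
    linarith
  have hab1 : (1 + δ) * (a : ℝ) ≤ b := by
    have : δ * (a : ℝ) ≤ δ₀ * a := mul_le_mul_of_nonneg_right hδle haR.le
    linarith
  have hab : a ≤ b := by
    have h' : 0 < δ * (a : ℝ) := by positivity
    have : (a : ℝ) ≤ b := by linarith
    exact_mod_cast this
  have haR1 : (1 : ℝ) ≤ a := by exact_mod_cast ha
  have hl2' : (a : ℝ) ^ (1 + κ) ≤ lam 2 :=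
    (Real.rpow_le_rpow_of_exponent_le haR1 (by linarith)).trans hl2
  obtain ⟨B, hB0, hnB, hb2, hcond, h1⟩ := block_lem ha hn0 hδ hδ1 ht' hKt h4n hab1
  obtain ⟨g, hg, hgs⟩ := exists_gap lam hanti
  have hBb : B ≤ b := le_trans (Nat.le_mul_of_pos_left B hn0) hnB
  obtain ⟨j, hj1, hj2, hgj⟩ := gap_lem lam hg ha hab hBb hK hn0 hε hεκ hb hl2' h3
  have hfin := num_le lam hanti hsum ha hab hB0 hK (by omega) hnB hε hε1 hκ hδ hδ1 hb hl1 hl2'
    h1 h3 h4 h5.le h6
  have hlo := hlow j hj1 hj2 a b B g hKa hB0 hb2 hcond hgj (by rw [hgs, hsum])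
  rw [hg] at hlo
  have hup := hU (k + 1) a b lam hanti
  have hX : 0 < (n * B).factorial * (n + n * a).choose n ^ B :=
    Nat.mul_pos (Nat.factorial_pos _) (Nat.pow_pos (Nat.choose_pos (Nat.le_add_right n (n * a))))
  refine Nat.le_of_mul_le_mul_left ?_ hX
  exact (Nat.mul_le_mul_left _ hup).trans (hfin.trans hlo)

end Vale.Agent.P181.NR.H46
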