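import Vale.Agent.P181.NR.Defs

set_option autoImplicit false

/-!
# P181, NR, block (N8): the numbers

`LowR` (lower bound, `B` blocks of `n` points) and `UpR` (upper bound) give `CoreR`.
-/

open Finset

namespace Vale.Agent.P181.NR.H46

open Vale.Agent.P181.NR Vale.Agent.P181.H280 Vale.Agent.P181.FR

theorem log_choose_le {a N : ℕ} (ha : 0 < a) (hN : a ≤ N) :
    Real.log ((N.choose a : ℕ) : ℝ) ≤ a * (Real.log ((N : ℝ) / a) + 1) := by
  have ha' : (0 : ℝ) < a := by exact_mod_cast ha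
  have hN' : (0 : ℝ) < N := by exact_mod_cast lt_of_lt_of_le ha hN
  have h1 : ((N.choose a : ℕ) : ℝ) ≤ (N : ℝ) ^ a / (a.factorial : ℝ) := Nat.choose_le_pow_div a N
  have h2 : (a : ℝ) ^ a / (a.factorial : ℝ) ≤ Real.exp a :=
    Real.pow_div_factorial_le_exp _ ha'.le a
  have hf : (0 : ℝ) < (a.factorial : ℝ) := by exact_mod_cast a.factorial_pos
  have h3 : (N : ℝ) ^ a / (a.factorial : ℝ) =
      ((N : ℝ) / a) ^ a * ((a : ℝ) ^ a / (a.factorial : ℝ)) := by
    rw [div_pow]; field_simp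
  have h4 : ((N.choose a : ℕ) : ℝ) ≤ ((N : ℝ) / a) ^ a * Real.exp a := by
    rw [h3] at h1
    exact h1.trans (mul_le_mul_of_nonneg_left h2 (by positivity))
  have h5 : (0 : ℝ) < ((N.choose a : ℕ) : ℝ) := by exact_mod_cast Nat.choose_pos hN
  calc Real.log ((N.choose a : ℕ) : ℝ) ≤ Real.log (((N : ℝ) / a) ^ a * Real.exp a) :=
        Real.log_le_log h5 h4
    _ = a * Real.log ((N : ℝ) / a) + a := by
        rw [Real.log_mul (by positivity) (by positivity), Real.log_pow, Real.log_exp]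
    _ = _ := by ring

theorem log_fact_le (q : ℕ) : Real.log ((q.factorial : ℕ) : ℝ) ≤ q * Real.log q := by
  have h : ((q.factorial : ℕ) : ℝ) ≤ (q : ℝ) ^ q := by exact_mod_cast Nat.factorial_le_pow q
  calc Real.log ((q.factorial : ℕ) : ℝ) ≤ Real.log ((q : ℝ) ^ q) :=
        Real.log_le_log (by exact_mod_cast q.factorial_pos) h
    _ = _ := Real.log_pow _ _

theorem half_le (x y : ℕ) (hy : 0 < y) : (x : ℝ) / y / 2 ≤ ((max 1 (x / y) : ℕ) : ℝ) := by
  have hy' : (0 : ℝ) < y := by exact_mod_cast hy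
  have h1 : x < y * (x / y) + y := by
    have h := Nat.div_add_mod x y
    have h' := Nat.mod_lt x hy
    omega
  have h2 : (x : ℝ) < y * ((x / y : ℕ) : ℝ) + y := by exact_mod_cast h1
  have h3 : (x : ℝ) / y ≤ ((x / y : ℕ) : ℝ) + 1 := by
    rw [div_le_iff₀ hy']; nlinarith
  have h5 : ((x / y : ℕ) : ℝ) ≤ ((max 1 (x / y) : ℕ) : ℝ) := by exact_mod_cast le_max_right _ _
  have h6 : (1 : ℝ) ≤ ((max 1 (x / y) : ℕ) : ℝ) := by exact_mod_cast le_max_left _ _
  linarith

/-- `log (max 1 ⌊x / y⌋)`. -/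
noncomputable def fl (y x : ℕ) : ℝ := Real.log ((max 1 (x / y) : ℕ) : ℝ)

theorem fl_nonneg (y x : ℕ) : 0 ≤ fl y x :=
  Real.log_nonneg (by exact_mod_cast le_max_left _ _)

theorem fl_ge {y x : ℕ} (hy : 0 < y) (hx : 0 < x) :
    Real.log x - Real.log y - Real.log 2 ≤ fl y x := by
  have hy' : (0 : ℝ) < y := by exact_mod_cast hy
  have hx' : (0 : ℝ) < x := by exact_mod_cast hx
  have h := Real.log_le_log (by positivity) (half_le x y hy)
  rw [Real.log_div (by positivity) (by norm_num), Real.log_div hx'.ne' hy'.ne'] at h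
  exact h

theorem exists_gap {m : ℕ} (lam : Fin m → ℕ) (hl : Antitone lam) :
    ∃ g : ℕ → ℕ, gw m g = lam ∧ ∑ i ∈ Icc 1 m, i * g i = ∑ i, lam i := by
  set L : ℕ → ℕ := fun l => if h : l < m then lam ⟨l, h⟩ else 0 with hL
  have hanti : ∀ i, L (i + 1) ≤ L i := by
    intro i
    simp only [hL]
    split_ifs with h1 h2
    · exact hl (by simp [Fin.le_def])
    · omega
    · exact Nat.zero_le _
    · exact le_rfl
  have hLm : L m = 0 := by simp [hL]
  refine ⟨fun l => L (l - 1) - L l, ?_, ?_⟩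
  · funext k
    have key : ∀ M, (k : ℕ) ≤ M → ∑ j ∈ Ioc (k : ℕ) M, (L (j - 1) - L j) + L M = L k := by
      intro M hM
      induction M, hM using Nat.le_induction with
      | base => simp
      | succ M hM ih =>
        rw [Finset.sum_Ioc_succ_top hM, ← ih]
        have h := hanti M
        simp only [Nat.add_sub_cancel]
        omega
    have h := key m k.isLt.le
    rw [hLm, add_zero] at h
    have h2 : L k = lam k := by simp [hL]
    rw [h2] at h
    exact h
  · have key : ∀ M, ∑ i ∈ Icc 1 M, i * (L (i - 1) - L i) + M * L M = ∑ i ∈ range M, L i := by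
      intro M
      induction M with
      | zero => simp
      | succ M ih =>
        rw [Finset.sum_Icc_succ_top (by omega), sum_range_succ, ← ih]
        obtain ⟨d, hd⟩ := Nat.exists_eq_add_of_le (hanti M)
        simp only [Nat.add_sub_cancel]
        rw [hd, Nat.add_sub_cancel_left]
        ring
    have h := key m
    rw [hLm, mul_zero, add_zero] at h
    rw [h, Finset.sum_range]
    exact Finset.sum_congr rfl fun i _ => by simp [hL]

/-- The final comparison of the exponents. -/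
theorem alg {m n a B L S ε κ δ c1 c2 p : ℝ} (hm : 3 ≤ m) (hn : 0 < n) (ha : 0 < a) (hB : 0 ≤ B)
    (hL : 0 ≤ L) (hε : 0 < ε) (hκ : 0 < κ) (hδ : 0 < δ) (hδ1 : δ ≤ 1) (hp : 0 ≤ p)
    (hc2 : 0 ≤ c2) (h1 : (1 + δ / 2) * a ≤ n * B) (h2 : κ * L ≤ S) (h2' : S ≤ 2 * m * L)
    (h3 : m * c2 + c1 ≤ ε * L) (h4 : 2 * m ≤ ε * L) (h5 : (m + 3) * ε ≤ δ * κ / 8)
    (h6 : p * (2 * m + 2) ≤ δ * κ / 8 * n) :
    n * B * ((1 + ε) * L) + B * (n * (L + c1)) + a * (ε * L + 2) + a * (S + 2 * (m - 2)) ≤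
      B * ((n - p) * (2 * L + S - m * (ε * L) - m * c2)) := by
  have hεL : 0 ≤ ε * L := by positivity
  have hpB : 0 ≤ p * B := by positivity
  have hY : 0 ≤ m * (ε * L) + m * c2 := by positivity
  have e1 : p * B * (2 * L + S) ≤ δ * κ / 8 * (n * B) * L := by
    have h7 : p * B * (2 * L + S) ≤ p * B * ((2 * m + 2) * L) :=
      mul_le_mul_of_nonneg_left (by linarith) hpB
    have h8 : p * (2 * m + 2) * (B * L) ≤ δ * κ / 8 * n * (B * L) :=
      mul_le_mul_of_nonneg_right h6 (by positivity)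
    nlinarith
  have e2 : 0 ≤ p * B * (m * (ε * L) + m * c2) := mul_nonneg hpB hY
  have hQ : 0 ≤ n * B := by positivity
  have e3 : n * B * (m * c2 + c1) ≤ n * B * (ε * L) := mul_le_mul_of_nonneg_left h3 hQ
  have e4 : a * (2 * m) ≤ a * (ε * L) := mul_le_mul_of_nonneg_left h4 ha.le
  have hθ : (m + 2) * ε + δ * κ / 8 ≤ δ * κ / 4 := by nlinarith
  have hδκ : δ * κ ≤ κ := by nlinarith
  have e5 : 0 ≤ S - ((m + 2) * ε + δ * κ / 8) * L := by
    have : ((m + 2) * ε + δ * κ / 8) * L ≤ κ * L :=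
      mul_le_mul_of_nonneg_right (by linarith [mul_pos hδ hκ]) hL
    linarith
  have e6 : (1 + δ / 2) * a * (S - ((m + 2) * ε + δ * κ / 8) * L) ≤
      n * B * (S - ((m + 2) * ε + δ * κ / 8) * L) := mul_le_mul_of_nonneg_right h1 e5
  have e7 : a * (S + 2 * (ε * L)) ≤ (1 + δ / 2) * a * (S - ((m + 2) * ε + δ * κ / 8) * L) := by
    have h9 : S + 2 * (ε * L) ≤ (1 + δ / 2) * (S - ((m + 2) * ε + δ * κ / 8) * L) := by
      have h10 : δ / 2 * (κ * L) ≤ δ / 2 * S := mul_le_mul_of_nonneg_left h2 (by positivity)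
      have h11 : (1 + δ / 2) * (((m + 2) * ε + δ * κ / 8) * L) ≤
          3 / 2 * (((m + 2) * ε + δ * κ / 8) * L) :=
        mul_le_mul_of_nonneg_right (by linarith) (by positivity)
      have h12 : (2 * (m + 3) * ε) * L ≤ (δ * κ / 4) * L :=
        mul_le_mul_of_nonneg_right (by linarith) hL
      have h13 : 0 ≤ (m + 2) * (ε * L) := by positivity
      have h14 : 0 ≤ δ * κ * L := by positivity
      nlinarith
    calc a * (S + 2 * (ε * L)) ≤ a * ((1 + δ / 2) * (S - ((m + 2) * ε + δ * κ / 8) * L)) :=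
          mul_le_mul_of_nonneg_left h9 ha.le
      _ = _ := by ring
  nlinarith

end Vale.Agent.P181.NR.H46
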